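import Vale.Agent.P269.H598.Hodge
import Vale.Agent.P269.H597.Defs

/-!
# Euler characteristic and Libgober-Wood identity of a complete intersection

Hirzebruch's formula in the form of `CI.Hirzebruch` is brought into the form of `H598.hirz` by
the substitution `z = s / (1 + s)`, then the identities of `H598.Hodge` apply.
-/

namespace Vale.Agent.P269.H861

open Finset

/-! ### The substitution `z = s / (1 + s)` -/

section Sub

variable {R : Type} [CommRing R]

/-- `1 / (1 + s)` -/
noncomputable def uu : PowerSeries R := PowerSeries.invOfUnit (1 + PowerSeries.X) 1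

lemma uu_mul : (1 + PowerSeries.X) * uu = (1 : PowerSeries R) :=
  PowerSeries.mul_invOfUnit _ 1 (by simp)

lemma uu_const : PowerSeries.constantCoeff (uu : PowerSeries R) = 1 := by
  have h := congrArg PowerSeries.constantCoeff (uu_mul (R := R))
  simpa using h

/-- `s / (1 + s)` -/
noncomputable def aa : PowerSeries R := PowerSeries.X * uu

lemma hasSubst_aa : PowerSeries.HasSubst (aa : PowerSeries R) :=
  PowerSeries.HasSubst.of_constantCoeff_zero' (by simp [aa])

/-- the substitution -/
noncomputable def sub : PowerSeries R →+* PowerSeries R :=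
  (PowerSeries.substAlgHom (R := R) hasSubst_aa).toRingHom

lemma sub_X : sub (PowerSeries.X : PowerSeries R) = aa := PowerSeries.substAlgHom_X hasSubst_aa

lemma sub_C (c : R) : sub (PowerSeries.C c) = PowerSeries.C c :=
  (PowerSeries.substAlgHom (R := R) hasSubst_aa).commutes c

lemma one_sub_aa : 1 - aa = (uu : PowerSeries R) := by
  have h := uu_mul (R := R)
  unfold aa; linear_combination -h

lemma coeff_mono (M j : ℕ) : PowerSeries.coeff (M + 1) ((1 + PowerSeries.X) ^ M * aa ^ j) =
    if j = M + 1 then (1 : R) else 0 := by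
  have e : (1 + PowerSeries.X) ^ M * aa ^ j =
      (PowerSeries.X ^ j * ((1 + PowerSeries.X) ^ M * uu ^ j) : PowerSeries R) := by
    unfold aa; ring
  rw [e, PowerSeries.coeff_X_pow_mul']
  split_ifs with h1 h2 h2
  · subst h2
    have e2 : (1 + PowerSeries.X) ^ M * uu ^ (M + 1) = (uu : PowerSeries R) := by
      rw [pow_succ, ← mul_assoc, ← mul_pow, uu_mul, one_pow, one_mul]
    rw [e2, Nat.sub_self, PowerSeries.coeff_zero_eq_constantCoeff_apply, uu_const]
  · have hj : j ≤ M := by omega
    obtain ⟨k, rfl⟩ := Nat.exists_eq_add_of_le hj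
    have e2 : ((1 + PowerSeries.X) ^ (j + k) * uu ^ j : PowerSeries R) =
        (((1 + Polynomial.X) ^ k : Polynomial R) : PowerSeries R) := by
      rw [pow_add, mul_right_comm, ← mul_pow, uu_mul, one_pow, one_mul]
      simp
    rw [e2, Polynomial.coeff_coe, add_comm (1 : Polynomial R),
      Polynomial.coeff_X_add_one_pow, show j + k + 1 - j = k + 1 by omega,
      Nat.choose_succ_self]
    simp
  · omega
  · rfl

lemma coeff_sub (M : ℕ) (G : PowerSeries R) :
    PowerSeries.coeff (M + 1) ((1 + PowerSeries.X) ^ M * sub G) =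
      PowerSeries.coeff (M + 1) G := by
  have hG := PowerSeries.eq_X_pow_mul_shift_add_trunc (M + 2) G
  set H := PowerSeries.mk fun i => PowerSeries.coeff (i + (M + 2)) G with hH
  have hT : ((G.trunc (M + 2) : Polynomial R) : PowerSeries R) =
      ∑ j ∈ range (M + 2), PowerSeries.C (PowerSeries.coeff j G) * PowerSeries.X ^ j := by
    ext n : 1
    rw [Polynomial.coeff_coe, PowerSeries.coeff_trunc, map_sum]
    simp only [PowerSeries.coeff_C_mul, PowerSeries.coeff_X_pow]
    simp
  have e1 : sub G = aa ^ (M + 2) * sub H +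
      ∑ j ∈ range (M + 2), PowerSeries.C (PowerSeries.coeff j G) * aa ^ j := by
    conv_lhs => rw [hG, hT]
    rw [map_add, map_mul, map_pow, sub_X, map_sum]
    simp only [map_mul, map_pow, sub_X, sub_C]
  rw [e1, mul_add, map_add, mul_sum, map_sum]
  have e2 : PowerSeries.coeff (M + 1) ((1 + PowerSeries.X) ^ M * (aa ^ (M + 2) * sub H)) = 0 := by
    have e : (1 + PowerSeries.X) ^ M * (aa ^ (M + 2) * sub H) =
      PowerSeries.X ^ (M + 2) * ((1 + PowerSeries.X) ^ M * uu ^ (M + 2) * sub H) := by
      unfold aa; ring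
    rw [e, PowerSeries.coeff_X_pow_mul', if_neg (by omega)]
  rw [e2, zero_add, Finset.sum_eq_single (M + 1)]
  · rw [mul_left_comm, PowerSeries.coeff_C_mul, coeff_mono, if_pos rfl, mul_one]
  · intro j _ hj
    rw [mul_left_comm, PowerSeries.coeff_C_mul, coeff_mono, if_neg hj, mul_zero]
  · intro h; simp at h

end Sub

/-! ### Hirzebruch's formula -/

open Vale.Agent.P269.H598 (hirz chiy PP recip recip_mul one_PP)
open Vale.Agent.P269.CI

/-- the variable `ε = 1 + y` -/
noncomputable def ee : PowerSeries (Polynomial ℚ) := PowerSeries.C Polynomial.X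

/-- the change of variables `y = ε - 1` -/
noncomputable def phi : Polynomial ℤ →+* Polynomial ℚ :=
  Polynomial.eval₂RingHom (Int.castRingHom (Polynomial ℚ)) (Polynomial.X - 1)

lemma phi_comp (p : Polynomial ℤ) :
    (phi p).comp (1 + Polynomial.X) = p.map (Int.castRingHom ℚ) := by
  have h : (Polynomial.compRingHom (1 + Polynomial.X)).comp phi =
      Polynomial.mapRingHom (Int.castRingHom ℚ) := by
    apply Polynomial.ringHom_ext'
    · exact RingHom.ext_int _ _
    · simp [phi]
  exact congrArg (fun f : Polynomial ℤ →+* Polynomial ℚ => f p) h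

lemma ee_PP (k : ℕ) : (1 + ee * PowerSeries.X) ^ k - 1 = ee * PP k := by
  have h1 : (1 + ee * PowerSeries.X) ^ k = ∑ j ∈ range (k + 1),
      PowerSeries.C (Polynomial.C (k.choose j : ℚ) * Polynomial.X ^ j) * PowerSeries.X ^ j := by
    rw [add_comm, add_pow]
    apply Finset.sum_congr rfl
    intro j _
    rw [map_mul, map_pow, mul_pow, one_pow, mul_one]
    have : (PowerSeries.C (Polynomial.C (k.choose j : ℚ)) : PowerSeries (Polynomial ℚ)) =
        (k.choose j : PowerSeries (Polynomial ℚ)) := by
      rw [map_natCast, map_natCast]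
    rw [this]
    unfold ee
    ring
  rw [h1]
  ext n : 1
  rw [map_sub, map_sum]
  unfold ee PP
  simp only [PowerSeries.coeff_C_mul, PowerSeries.coeff_X_pow, PowerSeries.coeff_mk,
    PowerSeries.coeff_one]
  rcases n with _ | n
  · simp
  · simp only [Nat.add_eq_zero_iff, one_ne_zero, and_false, if_false, sub_zero, mul_ite, mul_one,
      mul_zero, Nat.add_sub_cancel]
    by_cases h : n + 1 ≤ k
    · rw [Finset.sum_ite_eq, if_pos (by simpa using h)]
      ring
    · rw [Finset.sum_ite_eq, if_neg (by simpa using h), Nat.choose_eq_zero_of_lt (by omega)]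
      simp

lemma map_phi_X : PowerSeries.map phi PowerSeries.X = PowerSeries.X := PowerSeries.map_X _

lemma map_phi_y : PowerSeries.map phi (PowerSeries.C Polynomial.X) = ee - 1 := by
  rw [PowerSeries.map_C]
  unfold ee
  rw [← map_one (PowerSeries.C (R := Polynomial ℚ)), ← map_sub]
  congr 1
  simp [phi]

lemma prod_scale {A : Type} [CommRing A] (l : List ℕ) (u e : A) (f : ℕ → A) :
    (l.map fun k => u ^ k * (e * f k)).prod = (l.map fun k => u ^ k * e).prod *
      (l.map f).prod := by
  rw [← List.prod_map_mul]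
  congr 1
  apply List.map_congr_left
  intro k _
  ring

theorem sub_hirz {degs : List ℕ} {chi : PowerSeries (Polynomial ℤ)} (h : Hirzebruch degs chi) :
    sub (PowerSeries.map phi chi) = (1 + PowerSeries.X) ^ 2 * recip (1 + ee * PowerSeries.X) *
      (degs.map fun k => PP k * recip (1 + PP k)).prod := by
  unfold Hirzebruch at h
  have h1 := congrArg (fun f => sub (PowerSeries.map phi f)) h
  simp only [map_mul, map_add, map_sub, map_one, map_list_prod, List.map_map, Function.comp_def,
    map_pow, map_phi_X, map_phi_y] at h1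
  have he : sub ee = ee := sub_C _
  rw [sub_X, he] at h1
  have hu := uu_mul (R := Polynomial ℚ)
  have ha : 1 + (aa : PowerSeries (Polynomial ℚ)) * (ee - 1) = uu * (1 + ee * PowerSeries.X) := by
    unfold aa
    linear_combination -hu
  rw [ha, one_sub_aa] at h1
  have f1 : ∀ k : ℕ, (uu * (1 + ee * PowerSeries.X)) ^ k + (ee - 1) * uu ^ k =
      uu ^ k * (ee * (1 + PP k)) := by
    intro k
    rw [mul_pow]
    linear_combination (uu ^ k) * ee_PP k
  have f2 : ∀ k : ℕ, (uu * (1 + ee * PowerSeries.X)) ^ k - uu ^ k =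
      uu ^ k * (ee * PP k) := by
    intro k
    rw [mul_pow]
    linear_combination (uu ^ k) * ee_PP k
  simp only [f1, f2] at h1
  rw [prod_scale, prod_scale] at h1
  have hee : (ee : PowerSeries (Polynomial ℚ)) ≠ 0 := by
    intro h0
    have h2 := congrArg (fun f => (PowerSeries.coeff 0 f).coeff 1) h0
    simp [ee] at h2
  have huu : (uu : PowerSeries (Polynomial ℚ)) ≠ 0 := by
    intro h0
    rw [h0, mul_zero] at hu
    exact zero_ne_one hu
  have hne : (degs.map fun k => (uu : PowerSeries (Polynomial ℚ)) ^ k * ee).prod ≠ 0 := by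
    apply List.prod_ne_zero
    intro h0
    rw [List.mem_map] at h0
    obtain ⟨k, _, hk⟩ := h0
    exact mul_ne_zero (pow_ne_zero _ huu) hee hk
  have h2 : sub (PowerSeries.map phi chi) * (uu * (1 + ee * PowerSeries.X) * uu *
      (degs.map fun k => 1 + PP k).prod) = (degs.map PP).prod := by
    apply mul_left_cancel₀ hne
    rw [← h1]
    ring
  have h3 : (degs.map fun k => PP k * recip (1 + PP k)).prod =
      (degs.map PP).prod * (degs.map fun k => recip (1 + PP k)).prod := by
    rw [List.prod_map_mul]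
  have h4 : (degs.map fun k => 1 + PP k).prod * (degs.map fun k => recip (1 + PP k)).prod = 1 := by
    rw [← List.prod_map_mul]
    simp [one_PP]
  have h5 : (1 + ee * PowerSeries.X) * recip (1 + ee * PowerSeries.X) = 1 :=
    recip_mul (by simp)
  rw [h3, ← h2]
  calc sub (PowerSeries.map phi chi) = sub (PowerSeries.map phi chi) *
        ((1 + PowerSeries.X) * uu) ^ 2 * ((1 + ee * PowerSeries.X) *
          recip (1 + ee * PowerSeries.X)) * ((degs.map fun k => 1 + PP k).prod *
          (degs.map fun k => recip (1 + PP k)).prod) := by rw [hu, h4, h5]; ring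
    _ = _ := by ring

theorem chiY_eq {r : ℕ} {degs : List ℕ} {chi : PowerSeries (Polynomial ℤ)}
    (h : Hirzebruch degs chi) (hr : 1 ≤ r) :
    (PowerSeries.coeff (r + degs.length) chi).map (Int.castRingHom ℚ) = chiy r degs := by
  obtain ⟨M, hM⟩ : ∃ M, r + degs.length = M + 1 := ⟨r + degs.length - 1, by omega⟩
  have h1 := coeff_sub M (PowerSeries.map phi chi)
  have h2 : (1 + PowerSeries.X) ^ M * sub (PowerSeries.map phi chi) =
      hirz (M + 1) degs := by
    rw [sub_hirz h]
    unfold hirz ee
    ring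
  rw [h2, PowerSeries.coeff_map] at h1
  unfold chiy
  rw [hM, h1, phi_comp]

/-! ### The Chern classes -/

open Vale.Agent.P269.H598 (vv vv_mul ww Thh ec dd hirz_expand coeff_identities chiy_sums)

lemma Thh_eq (n : ℕ) (d : List ℕ) : Thh n d = PowerSeries.X ^ d.length *
    (PowerSeries.C (d.prod : ℚ) * ((1 + PowerSeries.X) ^ n * (d.map vv).prod)) := by
  have h : (d.map ww).prod = PowerSeries.X ^ d.length *
      (PowerSeries.C (d.prod : ℚ) * (d.map vv).prod) := by
    induction d with
    | nil => simp
    | cons k d ih =>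
      simp only [List.map_cons, List.prod_cons, List.length_cons, ih, ww, Nat.cast_mul, map_mul]
      ring
  unfold Thh
  rw [h]
  ring

variable (X : CompleteIntersection)

/-- the total Chern class over `ℚ` -/
noncomputable def cq : PowerSeries ℚ :=
  (1 + PowerSeries.X) ^ (X.dim + X.degs.length + 1) * (X.degs.map vv).prod

lemma chern_eq : chern X = (1 + PowerSeries.X) ^ (X.dim + X.degs.length + 1) *
    ((X.degs.map fun d : ℕ => (1 + (d : PowerSeries ℂ) * PowerSeries.X)).prod)⁻¹ := by
  rfl

lemma map_cq : PowerSeries.map (algebraMap ℚ ℂ) (cq X) = chern X := by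
  rw [chern_eq]
  unfold cq
  rw [map_mul, map_pow, map_add, map_one, PowerSeries.map_X]
  congr 1
  rw [eq_comm, PowerSeries.inv_eq_iff_mul_eq_one]
  · rw [map_list_prod, List.map_map, ← List.prod_map_mul]
    have : ∀ k : ℕ, (PowerSeries.map (algebraMap ℚ ℂ) ∘ vv) k *
        (1 + (k : PowerSeries ℂ) * PowerSeries.X) = 1 := by
      intro k
      have h := congrArg (PowerSeries.map (algebraMap ℚ ℂ)) (vv_mul k)
      simp only [map_mul, map_add, map_one, PowerSeries.map_X, map_natCast]
        at h
      rw [Function.comp_apply, mul_comm]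
      exact h
    simp only [this]
    simp
  · rw [map_list_prod, List.map_map]
    apply List.prod_ne_zero
    intro h0
    rw [List.mem_map] at h0
    obtain ⟨k, _, hk⟩ := h0
    simp at hk

lemma chernCoeff_eq (j : ℕ) : chernCoeff X j = ((PowerSeries.coeff j (cq X) : ℚ) : ℂ) := by
  unfold chernCoeff
  rw [← map_cq, PowerSeries.coeff_map]
  rfl

lemma coeff_Thh : PowerSeries.coeff (X.dim + X.degs.length)
    (Thh (X.dim + X.degs.length + 1) X.degs) =
    (X.degs.prod : ℚ) * PowerSeries.coeff X.dim (cq X) := by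
  rw [Thh_eq, PowerSeries.coeff_X_pow_mul', if_pos (by omega), PowerSeries.coeff_C_mul,
    Nat.add_sub_cancel]
  rfl

lemma coeff_Thh_X : PowerSeries.coeff (X.dim + X.degs.length)
    (Thh (X.dim + X.degs.length + 1) X.degs * PowerSeries.X) =
    (X.degs.prod : ℚ) * PowerSeries.coeff (X.dim - 1) (cq X) := by
  have h := X.two_le_dim
  have e : X.dim + X.degs.length = X.dim - 1 + X.degs.length + 1 := by omega
  conv_lhs => rw [e, PowerSeries.coeff_succ_mul_X]
  rw [Thh_eq, PowerSeries.coeff_X_pow_mul', if_pos (by omega), PowerSeries.coeff_C_mul,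
    Nat.add_sub_cancel]
  unfold cq
  rw [← e]

/-! ### The supertraces -/

lemma str_hp (f : ℕ → ℂ) : str X (fun a => f (hp X a)) = ∑ p ∈ range (X.dim + 1),
    (((-1) ^ p * (chiy X.dim X.degs).coeff p : ℚ) : ℂ) * f p := by
  have h0 : ∀ p ∈ range (X.dim + 1), (((-1) ^ p * (chiy X.dim X.degs).coeff p : ℚ) : ℂ) * f p =
      f p + (-1) ^ X.dim * ∑ a : X.Prim, if X.hodgeP a = p then f p else 0 := by
    intro p hp
    rw [Finset.mem_range] at hp
    rw [← chiY_eq X.hirzebruch (by have := X.two_le_dim; omega), Polynomial.coeff_map,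
      X.hodge_numbers p (by omega)]
    have e1 : (-1 : ℂ) ^ p * (-1) ^ p = 1 := by rw [← mul_pow]; simp
    have e2 : (-1 : ℂ) ^ p * (-1) ^ (X.dim - p) = (-1) ^ X.dim := by
      rw [← pow_add]; congr 1; omega
    have e3 : (∑ a : X.Prim, if X.hodgeP a = p then f p else 0) =
        ((Finset.univ.filter fun a => X.hodgeP a = p).card : ℂ) * f p := by
      rw [← Finset.sum_filter, Finset.sum_const, nsmul_eq_mul]
    rw [e3, eq_intCast]
    push_cast
    linear_combination (f p) * e1 +
      ((Finset.univ.filter fun a => X.hodgeP a = p).card : ℂ) * f p * e2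
  rw [Finset.sum_congr rfl h0, Finset.sum_add_distrib, ← Finset.mul_sum, Finset.sum_comm]
  unfold str
  rw [Fintype.sum_sum_type]
  congr 1
  · rw [← Fin.sum_univ_eq_sum_range]
    apply Finset.sum_congr rfl
    intro j _
    simp [par, CI.sgn, hp]
  · rw [Finset.mul_sum]
    apply Finset.sum_congr rfl
    intro a _
    have e4 : (∑ p ∈ range (X.dim + 1), if X.hodgeP a = p then f p else 0) = f (X.hodgeP a) := by
      rw [Finset.sum_ite_eq, if_pos]
      have := X.hodgeP_le a
      simp; omega
    rw [e4]
    congr 1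
    unfold CI.sgn par
    rcases Nat.even_or_odd X.dim with h | h
    · have h1 := Nat.even_iff.mp h
      rw [h.neg_one_pow]
      simp [h1]
    · have h1 := Nat.odd_iff.mp h
      rw [h.neg_one_pow]
      simp [h1]

theorem euler : str X (fun _ => 1) = deg X * chernCoeff X X.dim := by
  have h1 := str_hp X (fun _ => 1)
  rw [h1, chernCoeff_eq]
  obtain ⟨s0, _, _⟩ := chiy_sums X.dim X.degs
  obtain ⟨h0, _, _⟩ := hirz_expand (X.dim + X.degs.length) X.degs
  have h2 := congrArg (PowerSeries.coeff (X.dim + X.degs.length)) h0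
  rw [coeff_Thh] at h2
  simp only [ec, PowerSeries.coeff_mk] at h2
  rw [h2] at s0
  simp only [mul_one]
  rw [← Rat.cast_sum, s0]
  unfold deg
  generalize X.degs.prod = D
  push_cast
  ring

theorem libgober_wood : str X (fun a => mu X a ^ 2) =
    (X.dim : ℂ) / 12 * (deg X * chernCoeff X X.dim) +
      (index X : ℂ) / 6 * (deg X * chernCoeff X (X.dim - 1)) := by
  have h1 := str_hp X (fun p => ((p : ℂ) - (X.dim : ℂ) / 2) ^ 2)
  have h1' : str X (fun a => mu X a ^ 2) = _ := h1
  rw [h1', chernCoeff_eq, chernCoeff_eq]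
  obtain ⟨s0, s1, s2⟩ := chiy_sums X.dim X.degs
  obtain ⟨c1, c2⟩ := coeff_identities X.dim X.degs
  obtain ⟨h0, _, _⟩ := hirz_expand (X.dim + X.degs.length) X.degs
  have h2 := congrArg (PowerSeries.coeff (X.dim + X.degs.length)) h0
  rw [coeff_Thh] at h2
  simp only [ec, PowerSeries.coeff_mk] at h2
  rw [coeff_Thh_X] at c2
  rw [c1, h2] at s1
  rw [c2, h2] at s2
  rw [h2] at s0
  have hd : ((X.dim : ℚ) + 1 - dd X.degs) = ((index X : ℤ) : ℚ) := by
    have : ∀ d : List ℕ, dd d = (d.sum : ℚ) - d.length := by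
      intro d
      induction d with
      | nil => simp [dd]
      | cons k d ih =>
        have : dd (k :: d) = ((k : ℚ) - 1) + dd d := by simp [dd]
        rw [this, ih]
        push_cast [List.sum_cons, List.length_cons]
        ring
    rw [this]
    unfold index
    generalize X.degs.sum = D
    push_cast
    ring
  rw [hd] at s2
  have e : ∑ p ∈ range (X.dim + 1),
      (((-1) ^ p * (chiy X.dim X.degs).coeff p : ℚ) : ℂ) * ((p : ℂ) - (X.dim : ℂ) / 2) ^ 2 =
      (((∑ p ∈ range (X.dim + 1), (-1) ^ p * (chiy X.dim X.degs).coeff p * (p * (p - 1))) +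
      (1 - X.dim) * (∑ p ∈ range (X.dim + 1), (-1) ^ p * (chiy X.dim X.degs).coeff p * p) +
      (X.dim : ℚ) ^ 2 / 4 * ∑ p ∈ range (X.dim + 1), (-1) ^ p * (chiy X.dim X.degs).coeff p
      : ℚ) : ℂ) := by
    rw [Finset.mul_sum, Finset.mul_sum, ← Finset.sum_add_distrib, ← Finset.sum_add_distrib,
      Rat.cast_sum]
    apply Finset.sum_congr rfl
    intro p _
    push_cast
    ring
  rw [e, s0, s1, s2]
  unfold deg
  generalize X.degs.prod = D
  push_cast
  ring

end Vale.Agent.P269.H861
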